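import Mathlib

/-!
# The flow function of a bipartite graph

`r v N S Y = min_{X ⊆ S} v(S \ X) + v(N[X] ∩ Y)` is the largest mass which can be sent from `S`
to `Y`. It is submodular in `Y`, and sources and targets are complements.
-/

namespace Vale.Agent.P038.H222

open Finset

variable {β : Type*} [DecidableEq β]

/-- Total weight of a set. -/
def wt {γ : Type*} (v : γ → ℝ) (S : Finset γ) : ℝ := ∑ b ∈ S, v b

/-- The neighbourhood of a set. -/
def nb {γ : Type*} [DecidableEq γ] (N : γ → Finset γ) (S : Finset γ) : Finset γ := S.biUnion N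

theorem mem_nb {γ : Type*} [DecidableEq γ] {N : γ → Finset γ} {S : Finset γ} {y : γ} :
    y ∈ nb N S ↔ ∃ x ∈ S, y ∈ N x := by simp [nb]

theorem nb_mono {γ : Type*} [DecidableEq γ] {N : γ → Finset γ} {S T : Finset γ} (h : S ⊆ T) :
    nb N S ⊆ nb N T := fun y hy => by
  obtain ⟨x, hx, hy⟩ := mem_nb.1 hy
  exact mem_nb.2 ⟨x, h hx, hy⟩

/-- The flow function. -/
noncomputable def r (v : β → ℝ) (N : β → Finset β) (S Y : Finset β) : ℝ :=
  S.powerset.inf' ⟨∅, Finset.empty_mem_powerset S⟩ fun X => wt v (S \ X) + wt v (nb N X ∩ Y)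

variable {v : β → ℝ} {N : β → Finset β}

theorem r_le {S Y X : Finset β} (h : X ⊆ S) : r v N S Y ≤ wt v (S \ X) + wt v (nb N X ∩ Y) :=
  Finset.inf'_le _ (Finset.mem_powerset.2 h)

theorem r_att (v : β → ℝ) (N : β → Finset β) (S Y : Finset β) :
    ∃ X, X ⊆ S ∧ r v N S Y = wt v (S \ X) + wt v (nb N X ∩ Y) := by
  obtain ⟨X, hX, h⟩ := Finset.exists_mem_eq_inf' (s := S.powerset)
    ⟨∅, Finset.empty_mem_powerset S⟩ fun X => wt v (S \ X) + wt v (nb N X ∩ Y)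
  exact ⟨X, Finset.mem_powerset.1 hX, h⟩

theorem wt_mono {γ : Type*} {v : γ → ℝ} (hv : ∀ b, 0 ≤ v b) {S T : Finset γ} (h : S ⊆ T) :
    wt v S ≤ wt v T := Finset.sum_le_sum_of_subset_of_nonneg h fun b _ _ => hv b

theorem wt_nonneg {γ : Type*} {v : γ → ℝ} (hv : ∀ b, 0 ≤ v b) (S : Finset γ) : 0 ≤ wt v S :=
  Finset.sum_nonneg fun b _ => hv b

theorem wt_two {γ : Type*} [DecidableEq γ] {v : γ → ℝ} (hv : ∀ b, 0 ≤ v b) {A B C D : Finset γ}
    (h1 : ∀ b ∈ A, b ∈ C ∨ b ∈ D) (h2 : ∀ b ∈ B, b ∈ C ∨ b ∈ D)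
    (h3 : ∀ b ∈ A, b ∈ B → b ∈ C ∧ b ∈ D) : wt v A + wt v B ≤ wt v C + wt v D := by
  have e1 : wt v (A ∪ B) + wt v (A ∩ B) = wt v A + wt v B := Finset.sum_union_inter
  have e2 : wt v (C ∪ D) + wt v (C ∩ D) = wt v C + wt v D := Finset.sum_union_inter
  rw [← e1, ← e2]
  refine add_le_add (wt_mono hv fun b hb => ?_) (wt_mono hv fun b hb => ?_)
  · rcases Finset.mem_union.1 hb with h | h
    · exact Finset.mem_union.2 (h1 b h)
    · exact Finset.mem_union.2 (h2 b h)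
  · obtain ⟨h, h'⟩ := Finset.mem_inter.1 hb
    exact Finset.mem_inter.2 (h3 b h h')

theorem mem_nb_union {X1 X2 : Finset β} {b : β} :
    b ∈ nb N (X1 ∪ X2) ↔ b ∈ nb N X1 ∨ b ∈ nb N X2 := by
  simp only [mem_nb, Finset.mem_union]
  constructor
  · rintro ⟨x, h | h, hx⟩
    · exact Or.inl ⟨x, h, hx⟩
    · exact Or.inr ⟨x, h, hx⟩
  · rintro (⟨x, h, hx⟩ | ⟨x, h, hx⟩)
    · exact ⟨x, Or.inl h, hx⟩
    · exact ⟨x, Or.inr h, hx⟩

theorem mem_nb_inter {X1 X2 : Finset β} {b : β} (h : b ∈ nb N (X1 ∩ X2)) :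
    b ∈ nb N X1 ∧ b ∈ nb N X2 :=
  ⟨nb_mono Finset.inter_subset_left h, nb_mono Finset.inter_subset_right h⟩

/-- sources and targets are complements -/
theorem r_comp (hv : ∀ b, 0 ≤ v b) {S S' Y Y' : Finset β} (hS : S ⊆ S') (hY : Y ⊆ Y') :
    r v N S' Y + r v N S Y' ≤ r v N S' Y' + r v N S Y := by
  obtain ⟨X1, hX1, e1⟩ := r_att v N S' Y'
  obtain ⟨X2, hX2, e2⟩ := r_att v N S Y
  have h1 := r_le (v := v) (N := N) (Y := Y) (Finset.union_subset hX1 (hX2.trans hS))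
  have h2 := r_le (v := v) (N := N) (Y := Y')
    (show X1 ∩ X2 ⊆ S from Finset.inter_subset_right.trans hX2)
  have h3 : wt v (S' \ (X1 ∪ X2)) + wt v (S \ (X1 ∩ X2)) ≤ wt v (S' \ X1) + wt v (S \ X2) := by
    refine wt_two hv (fun b hb => ?_) (fun b hb => ?_) (fun b hb hb' => ?_)
    · rw [Finset.mem_sdiff, Finset.mem_union] at hb
      exact Or.inl (Finset.mem_sdiff.2 ⟨hb.1, fun h => hb.2 (Or.inl h)⟩)
    · rw [Finset.mem_sdiff, Finset.mem_inter] at hb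
      by_cases h : b ∈ X1
      · exact Or.inr (Finset.mem_sdiff.2 ⟨hb.1, fun h' => hb.2 ⟨h, h'⟩⟩)
      · exact Or.inl (Finset.mem_sdiff.2 ⟨hS hb.1, h⟩)
    · rw [Finset.mem_sdiff, Finset.mem_union] at hb
      rw [Finset.mem_sdiff] at hb'
      exact ⟨Finset.mem_sdiff.2 ⟨hb.1, fun h => hb.2 (Or.inl h)⟩,
        Finset.mem_sdiff.2 ⟨hb'.1, fun h => hb.2 (Or.inr h)⟩⟩
  have h4 : wt v (nb N (X1 ∪ X2) ∩ Y) + wt v (nb N (X1 ∩ X2) ∩ Y') ≤
      wt v (nb N X1 ∩ Y') + wt v (nb N X2 ∩ Y) := by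
    refine wt_two hv (fun b hb => ?_) (fun b hb => ?_) (fun b hb hb' => ?_)
    · rw [Finset.mem_inter] at hb
      rcases mem_nb_union.1 hb.1 with h | h
      · exact Or.inl (Finset.mem_inter.2 ⟨h, hY hb.2⟩)
      · exact Or.inr (Finset.mem_inter.2 ⟨h, hb.2⟩)
    · rw [Finset.mem_inter] at hb
      exact Or.inl (Finset.mem_inter.2 ⟨(mem_nb_inter hb.1).1, hb.2⟩)
    · rw [Finset.mem_inter] at hb hb'
      exact ⟨Finset.mem_inter.2 ⟨(mem_nb_inter hb'.1).1, hb'.2⟩,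
        Finset.mem_inter.2 ⟨(mem_nb_inter hb'.1).2, hb.2⟩⟩
  rw [e1, e2]
  linarith

/-- submodular in the targets -/
theorem r_sub (hv : ∀ b, 0 ≤ v b) (S Y1 Y2 : Finset β) :
    r v N S (Y1 ∪ Y2) + r v N S (Y1 ∩ Y2) ≤ r v N S Y1 + r v N S Y2 := by
  obtain ⟨X1, hX1, e1⟩ := r_att v N S Y1
  obtain ⟨X2, hX2, e2⟩ := r_att v N S Y2
  have h1 := r_le (v := v) (N := N) (Y := Y1 ∪ Y2)
    (show X1 ∩ X2 ⊆ S from Finset.inter_subset_right.trans hX2)
  have h2 := r_le (v := v) (N := N) (Y := Y1 ∩ Y2) (Finset.union_subset hX1 hX2)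
  have h3 : wt v (S \ (X1 ∪ X2)) + wt v (S \ (X1 ∩ X2)) ≤ wt v (S \ X1) + wt v (S \ X2) := by
    refine wt_two hv (fun b hb => ?_) (fun b hb => ?_) (fun b hb hb' => ?_)
    · rw [Finset.mem_sdiff, Finset.mem_union] at hb
      exact Or.inl (Finset.mem_sdiff.2 ⟨hb.1, fun h => hb.2 (Or.inl h)⟩)
    · rw [Finset.mem_sdiff, Finset.mem_inter] at hb
      by_cases h : b ∈ X1
      · exact Or.inr (Finset.mem_sdiff.2 ⟨hb.1, fun h' => hb.2 ⟨h, h'⟩⟩)
      · exact Or.inl (Finset.mem_sdiff.2 ⟨hb.1, h⟩)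
    · rw [Finset.mem_sdiff, Finset.mem_union] at hb
      exact ⟨Finset.mem_sdiff.2 ⟨hb.1, fun h => hb.2 (Or.inl h)⟩,
        Finset.mem_sdiff.2 ⟨hb.1, fun h => hb.2 (Or.inr h)⟩⟩
  have h4 : wt v (nb N (X1 ∩ X2) ∩ (Y1 ∪ Y2)) + wt v (nb N (X1 ∪ X2) ∩ (Y1 ∩ Y2)) ≤
      wt v (nb N X1 ∩ Y1) + wt v (nb N X2 ∩ Y2) := by
    refine wt_two hv (fun b hb => ?_) (fun b hb => ?_) (fun b hb hb' => ?_)
    · rw [Finset.mem_inter, Finset.mem_union] at hb
      obtain ⟨k1, k2⟩ := mem_nb_inter hb.1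
      rcases hb.2 with h | h
      · exact Or.inl (Finset.mem_inter.2 ⟨k1, h⟩)
      · exact Or.inr (Finset.mem_inter.2 ⟨k2, h⟩)
    · rw [Finset.mem_inter, Finset.mem_inter] at hb
      rcases mem_nb_union.1 hb.1 with h | h
      · exact Or.inl (Finset.mem_inter.2 ⟨h, hb.2.1⟩)
      · exact Or.inr (Finset.mem_inter.2 ⟨h, hb.2.2⟩)
    · rw [Finset.mem_inter, Finset.mem_union] at hb
      rw [Finset.mem_inter, Finset.mem_inter] at hb'
      obtain ⟨k1, k2⟩ := mem_nb_inter hb.1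
      exact ⟨Finset.mem_inter.2 ⟨k1, hb'.2.1⟩, Finset.mem_inter.2 ⟨k2, hb'.2.2⟩⟩
  rw [e1, e2]
  linarith

theorem r_mono (hv : ∀ b, 0 ≤ v b) {S Y Y' : Finset β} (h : Y ⊆ Y') :
    r v N S Y ≤ r v N S Y' := by
  obtain ⟨X, hX, e⟩ := r_att v N S Y'
  rw [e]
  exact (r_le hX).trans (add_le_add le_rfl (wt_mono hv (Finset.inter_subset_inter_left h)))

theorem r_insert_le (hv : ∀ b, 0 ≤ v b) {S Y : Finset β} (y : β) :
    r v N S (insert y Y) ≤ r v N S Y + v y := by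
  obtain ⟨X, hX, e⟩ := r_att v N S Y
  have h1 := r_le (v := v) (N := N) (Y := insert y Y) hX
  have h2 : wt v (nb N X ∩ insert y Y) ≤ wt v (nb N X ∩ Y) + v y := by
    have : wt v (nb N X ∩ insert y Y) ≤ wt v (nb N X ∩ Y) + wt v {y} := by
      have := wt_two hv (A := nb N X ∩ insert y Y) (B := ∅) (C := nb N X ∩ Y) (D := {y})
        (fun b hb => by
          rw [Finset.mem_inter, Finset.mem_insert] at hb
          rcases hb.2 with h | h
          · exact Or.inr (Finset.mem_singleton.2 h)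
          · exact Or.inl (Finset.mem_inter.2 ⟨hb.1, h⟩))
        (fun b hb => absurd hb (Finset.notMem_empty b))
        (fun b _ hb => absurd hb (Finset.notMem_empty b))
      have e0 : wt v (∅ : Finset β) = 0 := by simp [wt]
      linarith
    have e1 : wt v {y} = v y := by simp [wt]
    linarith
  rw [e]
  linarith

theorem r_empty (hv : ∀ b, 0 ≤ v b) (S : Finset β) : r v N S ∅ = 0 := by
  refine le_antisymm ?_ ?_
  · have := r_le (v := v) (N := N) (Y := ∅) (Finset.Subset.refl S)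
    simpa [wt] using this
  · obtain ⟨X, _, e⟩ := r_att v N S ∅
    rw [e]
    exact add_nonneg (wt_nonneg hv _) (wt_nonneg hv _)

/-- Hall's condition -/
theorem r_hall (hv : ∀ b, 0 ≤ v b) {S Y : Finset β}
    (h : ∀ X, X ⊆ S → wt v X ≤ wt v (nb N X ∩ Y)) : r v N S Y = wt v S := by
  refine le_antisymm ?_ ?_
  · have := r_le (v := v) (N := N) (Y := Y) (Finset.empty_subset S)
    simpa [wt, nb] using this
  · obtain ⟨X, hX, e⟩ := r_att v N S Y
    rw [e]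
    have h1 : wt v (S \ X) + wt v X = wt v S := Finset.sum_sdiff hX
    have := h X hX
    linarith

/-- targets outside the neighbourhood of the sources may be dropped -/
theorem r_targets {S Y Y' : Finset β} (hY : Y ⊆ Y') (h : ∀ b ∈ Y', b ∈ nb N S → b ∈ Y) :
    r v N S Y' = r v N S Y := by
  refine le_antisymm ?_ ?_
  · obtain ⟨X, hX, e⟩ := r_att v N S Y
    rw [e]
    have h1 := r_le (v := v) (N := N) (Y := Y') hX
    have h2 : nb N X ∩ Y' = nb N X ∩ Y := by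
      ext b
      simp only [Finset.mem_inter]
      exact ⟨fun hb => ⟨hb.1, h b hb.2 (nb_mono hX hb.1)⟩, fun hb => ⟨hb.1, hY hb.2⟩⟩
    rwa [h2] at h1
  · obtain ⟨X, hX, e⟩ := r_att v N S Y'
    rw [e]
    have h1 := r_le (v := v) (N := N) (Y := Y) hX
    have h2 : nb N X ∩ Y' = nb N X ∩ Y := by
      ext b
      simp only [Finset.mem_inter]
      exact ⟨fun hb => ⟨hb.1, h b hb.2 (nb_mono hX hb.1)⟩, fun hb => ⟨hb.1, hY hb.2⟩⟩
    rwa [h2]

/-- sources without targets may be dropped -/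
theorem r_sources (hv : ∀ b, 0 ≤ v b) {S S' Y : Finset β} (hS : S ⊆ S')
    (h : ∀ s ∈ S', s ∉ S → Disjoint (N s) Y) : r v N S' Y = r v N S Y := by
  refine le_antisymm ?_ ?_
  · obtain ⟨X, hX, e⟩ := r_att v N S Y
    have h1 := r_le (v := v) (N := N) (Y := Y)
      (show X ∪ (S' \ S) ⊆ S' from Finset.union_subset (hX.trans hS) Finset.sdiff_subset)
    have h2 : S' \ (X ∪ (S' \ S)) = S \ X := by
      ext b
      simp only [Finset.mem_sdiff, Finset.mem_union, not_or, not_and, not_not]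
      exact ⟨fun hb => ⟨hb.2.2 hb.1, hb.2.1⟩, fun hb => ⟨hS hb.1, hb.2, fun _ => hb.1⟩⟩
    have h3 : nb N (X ∪ (S' \ S)) ∩ Y = nb N X ∩ Y := by
      ext b
      simp only [Finset.mem_inter, mem_nb_union]
      constructor
      · rintro ⟨hb | hb, hb'⟩
        · exact ⟨hb, hb'⟩
        · obtain ⟨s, hs, hbs⟩ := mem_nb.1 hb
          obtain ⟨hs1, hs2⟩ := Finset.mem_sdiff.1 hs
          exact absurd hb' (Finset.disjoint_left.1 (h s hs1 hs2) hbs)
      · exact fun hb => ⟨Or.inl hb.1, hb.2⟩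
    rw [h2, h3] at h1
    rw [e]
    exact h1
  · obtain ⟨X, hX, e⟩ := r_att v N S' Y
    have h1 := r_le (v := v) (N := N) (Y := Y) (show X ∩ S ⊆ S from Finset.inter_subset_right)
    rw [e]
    refine h1.trans (add_le_add (wt_mono hv fun b hb => ?_) (wt_mono hv fun b hb => ?_))
    · rw [Finset.mem_sdiff, Finset.mem_inter] at hb
      exact Finset.mem_sdiff.2 ⟨hS hb.1, fun hX' => hb.2 ⟨hX', hb.1⟩⟩
    · rw [Finset.mem_inter] at hb ⊢
      exact ⟨(mem_nb_inter hb.1).1, hb.2⟩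

end Vale.Agent.P038.H222
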